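import Vale.Agent.P263C25.Rows

/-!
# P263C: the double of the trace is a closed framed manifold
-/

open Topology Set OnePoint CategoryTheory Filter

namespace Vale.Agent.P263C64

open Vale.Agent.P263 Vale.Agent.P263A Vale.Agent.P263.FR Vale.Agent.P263C25

/-- a `Tub` with given map and given compact set -/
theorem exists_tub_of {m K : ℕ} {f : (Fin m → ℝ) → (Fin K → ℝ)}
    (hf : ContDiff ℝ ((⊤ : ℕ∞) : WithTop ℕ∞) f) {C U : Set (Fin m → ℝ)} (hC : IsCompact C)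
    (hU : IsOpen U) (hUC : U ⊆ C) (hz : ∀ x ∈ C, f x = 0 → x ∈ U)
    (hsurj : ∀ x ∈ C, f x = 0 → Function.Surjective (fderiv ℝ f x)) :
    ∃ D : Tub m K, D.f = f ∧ D.C = C := by
  obtain ⟨δ₀, hδ₀, hmin⟩ := (hC.diff hU).exists_forall_le'
    (f := fun x => qn (f x)) (a := 0) (continuous_qn.comp hf.continuous).continuousOn
    fun x hx => qn_pos fun h => hx.2 (hz x hx.1 h)
  obtain ⟨δ, hδ, ρ, hρc, hρ, hρi, L, hL⟩ := exists_retraction (hf.of_le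
    (WithTop.coe_le_coe.2 (le_top : (1 : ℕ∞) ≤ ⊤))) hU hC hUC hz
    (fun x hx h0 => hsurj x (hUC hx) h0) hU (fun x hx _ => hx)
  let s : ℝ := max (1 / δ₀) (1 / δ ^ 2)
  have hs0 : 1 / δ₀ ≤ s := le_max_left _ _
  have hs : 0 < s := lt_of_lt_of_le (by positivity) hs0
  have hsδ : ∀ x : Fin m → ℝ, s * qn (f x) ≤ 1 → ‖f x‖ ≤ δ := by
    intro x hx
    have h1 : 1 / δ ^ 2 * qn (f x) ≤ 1 :=
      (mul_le_mul_of_nonneg_right (le_max_right _ _) (qn_nonneg _)).trans hx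
    have h2 : qn (f x) ≤ δ ^ 2 := by
      rw [one_div, inv_mul_le_iff₀ (by positivity), mul_one] at h1
      exact h1
    exact norm_le_of_qn h2 hδ.le
  refine ⟨{ f := f, smooth := hf, C := C, U := U, isOpen_U := hU
            isCompact_C := hC, subset := hUC, s := s, s_pos := hs
            far := fun x hx hxU => ?_
            surj := hsurj
            ρ := ρ
            ρ_cont := hρc.mono fun x hx => ⟨hx.1, hsδ x hx.2⟩
            ρ_mem := fun x hx h => ⟨hUC (hρ x hx (hsδ x h)).1, (hρ x hx (hsδ x h)).2.1⟩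
            ρ_seg := fun x hx h => (hρ x hx (hsδ x h)).2.2
            ρ_id := fun x hx h0 => hρi x (hz x hx h0) h0
            L := L
            ρ_near := fun x hx h => hL x hx (hsδ x h) }, rfl, rfl⟩
  have h2 : δ₀ ≤ qn (f x) := hmin x ⟨hx, hxU⟩
  have h4 : 1 = 1 / δ₀ * δ₀ := by field_simp
  rw [h4]
  exact mul_le_mul hs0 h2 hδ₀.le hs.le

variable {m K : ℕ} {F : Bool → (ST.Sph m ⟶ ST.Sph K)} (T : Fam F)

/-- the equations of the double -/
def eqn (x : ((Fin m → ℝ) × ℝ) × ℝ) : (Fin K → ℝ) × ℝ := (T.g x.1, x.2 ^ 2 + x.1.2 ^ 2 - x.1.2)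

theorem eqn_smooth : ContDiff ℝ ((⊤ : ℕ∞) : WithTop ℕ∞) (eqn T) :=
  (T.smooth.comp contDiff_fst).prodMk (by fun_prop)

theorem eqn_zero {x : ((Fin m → ℝ) × ℝ) × ℝ} :
    eqn T x = 0 ↔ T.g x.1 = 0 ∧ x.2 ^ 2 = x.1.2 - x.1.2 ^ 2 := by
  unfold eqn
  rw [Prod.mk_eq_zero]
  exact and_congr_right fun _ => ⟨fun h => by linarith, fun h => by linarith⟩

/-- at the two ends the family does not depend on `t` -/
theorem fderiv_end {z : Fin m → ℝ} {b : Bool} (hC : (z, en b) ∈ T.C) (h0 : T.g (z, en b) = 0) :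
    fderiv ℝ T.g (z, en b) (0, 1) = 0 := by
  have h4 : |en b - en b| ≤ 1 / 4 := by rw [sub_self, abs_zero]; norm_num
  have hO : z ∈ T.O b := T.zO b ⟨z, T.zero b z _ hC h4 h0⟩
  have hd : HasFDerivAt T.g (fderiv ℝ T.g (z, en b)) (z, en b) :=
    ((T.smooth.differentiable (by simp)) _).hasFDerivAt
  have h1 : HasDerivAt (fun t : ℝ => ((z, t) : (Fin m → ℝ) × ℝ)) (0, 1) (en b) :=
    (hasDerivAt_const _ z).prodMk (hasDerivAt_id _)
  have h2 := hd.comp_hasDerivAt (en b) h1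
  have h3 : (T.g ∘ fun t : ℝ => ((z, t) : (Fin m → ℝ) × ℝ)) =ᶠ[𝓝 (en b)]
      fun _ => T.g (z, en b) := by
    filter_upwards [Metric.closedBall_mem_nhds (en b) (by norm_num : (0 : ℝ) < 1 / 4)] with t ht
    exact at'_inj ((T.eqO b z t hO ht).2.symm.trans (T.eqO b z _ hO h4).2)
  exact h2.unique ((hasDerivAt_const _ _).congr_of_eventuallyEq h3)

theorem eqn_surj {x : ((Fin m → ℝ) × ℝ) × ℝ} (hx : x.1 ∈ T.C) (h0 : eqn T x = 0) :
    Function.Surjective (fderiv ℝ (eqn T) x) := by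
  obtain ⟨⟨z, t⟩, s⟩ := x
  obtain ⟨hg, hs⟩ := (eqn_zero T).1 h0
  have hg' : T.g (z, t) = 0 := hg
  have hs' : s ^ 2 = t - t ^ 2 := hs
  have hd : HasFDerivAt T.g (fderiv ℝ T.g (z, t)) (z, t) :=
    ((T.smooth.differentiable (by simp)) _).hasFDerivAt
  let p₁ : (((Fin m → ℝ) × ℝ) × ℝ) →L[ℝ] (Fin m → ℝ) × ℝ := ContinuousLinearMap.fst ℝ _ _
  let p₂ : (((Fin m → ℝ) × ℝ) × ℝ) →L[ℝ] ℝ := ContinuousLinearMap.snd ℝ _ _
  let p₃ : (((Fin m → ℝ) × ℝ) × ℝ) →L[ℝ] ℝ := (ContinuousLinearMap.snd ℝ _ _).comp p₁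
  have h2 : HasFDerivAt (fun x : ((Fin m → ℝ) × ℝ) × ℝ => x.2) p₂ ((z, t), s) := p₂.hasFDerivAt
  have h3 : HasFDerivAt (fun x : ((Fin m → ℝ) × ℝ) × ℝ => x.1.2) p₃ ((z, t), s) := p₃.hasFDerivAt
  have h4 : HasFDerivAt (eqn T) _ ((z, t), s) :=
    (hd.comp ((z, t), s) p₁.hasFDerivAt).prodMk (((h2.pow 2).add (h3.pow 2)).sub h3)
  rw [h4.fderiv]
  rintro ⟨a, c⟩
  obtain ⟨w, hw⟩ := T.reg (z, t) hx hg' a
  by_cases hs0 : s = 0
  · subst hs0
    obtain ⟨b, rfl⟩ : ∃ b, t = en b := by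
      have h5 : t * (1 - t) = 0 := by linarith
      rcases mul_eq_zero.1 h5 with h | h
      · exact ⟨false, h⟩
      · exact ⟨true, by show t = 1; linarith⟩
    have h6 := fderiv_end T hx hg'
    have h7 : (2 * en b - 1) * (2 * en b - 1) = 1 := by linarith
    refine ⟨(w + ((2 * en b - 1) * c - w.2) • ((0, 1) : (Fin m → ℝ) × ℝ), 0), Prod.ext ?_ ?_⟩
    · show fderiv ℝ T.g (z, en b) (w + _ • ((0, 1) : (Fin m → ℝ) × ℝ)) = a
      rw [map_add, _root_.map_smul, h6, smul_zero, add_zero, hw]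
    · simp [p₁, p₂, p₃]
      linear_combination c * h7
  · refine ⟨(w, (c - (2 * t - 1) * w.2) / (2 * s)), Prod.ext hw ?_⟩
    simp [p₁, p₂, p₃]
    field_simp
    ring

/-- **The double.** -/
theorem dbl : DBL := by
  intro d i F T
  let A : (Fin (d + 1 + (i + 1 + 1)) → ℝ) ≃L[ℝ] ((Fin (d + (i + 1)) → ℝ) × ℝ) × ℝ :=
    ContinuousLinearEquiv.ofFinrankEq (by simp; omega)
  let B : ((Fin (i + 1) → ℝ) × ℝ) ≃L[ℝ] (Fin (i + 1 + 1) → ℝ) :=
    ContinuousLinearEquiv.ofFinrankEq (by simp)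
  have hB : ∀ y, B y = 0 ↔ y = 0 := fun y => B.map_eq_zero_iff
  have hI : ∀ {s t : ℝ}, s ^ 2 = t - t ^ 2 → (0 ≤ t ∧ t ≤ 1) ∧ -1 < s ∧ s < 1 := by
    intro s t h
    refine ⟨⟨?_, ?_⟩, ?_, ?_⟩ <;> nlinarith [sq_nonneg s, sq_nonneg (2 * t - 1), sq_nonneg t]
  obtain ⟨D, hf, hC⟩ := exists_tub_of (f := B ∘ eqn T ∘ A)
    (B.contDiff.comp ((eqn_smooth T).comp A.contDiff))
    (C := A ⁻¹' (T.C ×ˢ Icc (-1) 1)) (U := A ⁻¹' (T.V ×ˢ Ioo (-1) 1))
    (A.toHomeomorph.isCompact_preimage.2 (T.cC.prod isCompact_Icc))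
    ((T.oV.prod isOpen_Ioo).preimage A.continuous)
    (preimage_mono (prod_mono T.sub Ioo_subset_Icc_self))
    (fun x hx h0 => by
      obtain ⟨h1, h2⟩ := (eqn_zero T).1 ((hB _).1 h0)
      exact ⟨T.far _ hx.1 (hI h2).1.1 (hI h2).1.2 h1, (hI h2).2⟩)
    (fun x hx h0 => by
      rw [B.comp_fderiv, A.comp_right_fderiv]
      exact B.surjective.comp ((eqn_surj T hx.1 ((hB _).1 h0)).comp A.surjective))
  have hM : ∀ x, x ∈ D.C ∧ D.f x = 0 ↔
      (A x).1 ∈ T.C ∧ T.g (A x).1 = 0 ∧ (A x).2 ^ 2 = (A x).1.2 - (A x).1.2 ^ 2 := by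
    intro x
    rw [hf, hC, ← eqn_zero T, ← hB]
    refine ⟨fun h => ⟨h.1.1, h.2⟩, fun h => ⟨⟨h.1, ?_⟩, h.2⟩⟩
    have h2 := (hI ((eqn_zero T).1 ((hB _).1 h.2)).2).2
    exact ⟨h2.1.le, h2.2.le⟩
  let l : Mfd D.F ≃ₜ T.M :=
    { toFun := fun v => ⟨A v.1, (hM _).1 (D.mem_Mfd v)⟩
      invFun := fun y => ⟨A.symm y.1, D.F_eq_zero.2 ((hM _).2 (by
        rw [A.apply_symm_apply]; exact y.2))⟩
      left_inv := fun v => Subtype.ext (A.symm_apply_apply _)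
      right_inv := fun y => Subtype.ext (A.apply_symm_apply _)
      continuous_toFun := (A.continuous.comp continuous_subtype_val).subtype_mk _
      continuous_invFun := (A.symm.continuous.comp continuous_subtype_val).subtype_mk _ }
  have hc : Continuous fun a : Fin (i + 1) → ℝ => D.s * qn (B (a, 0)) :=
    continuous_const.mul (continuous_qn.comp (B.continuous.comp (Continuous.prodMk_left 0)))
  obtain ⟨δ, hδ, hball⟩ := Metric.nhds_basis_closedBall.mem_iff.1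
    ((isOpen_lt hc continuous_const (g := fun _ => 1)).mem_nhds (x := 0) (by
      show D.s * qn (B 0) < 1
      rw [map_zero, qn_zero, mul_zero]
      exact one_pos))
  let p : T.Nb δ → (Fin (d + 1 + (i + 1 + 1)) → ℝ) := fun x =>
    A.symm (x.1, Real.sqrt (x.1.2 - x.1.2 ^ 2))
  have hp : Continuous p := A.symm.continuous.comp (by fun_prop)
  have hsq : ∀ x : T.Nb δ, Real.sqrt (x.1.2 - x.1.2 ^ 2) ^ 2 = x.1.2 - x.1.2 ^ 2 := fun x =>
    Real.sq_sqrt (by nlinarith [x.2.2.1, x.2.2.2.1])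
  have hpC : ∀ x, p x ∈ D.C := fun x => by
    rw [hC, mem_preimage, A.apply_symm_apply]
    exact ⟨x.2.1, (hI (hsq x)).2.1.le, (hI (hsq x)).2.2.le⟩
  have hpf : ∀ x, D.f (p x) = B (T.g x.1, 0) := fun x => by
    rw [hf]
    show B (eqn T (A (A.symm _))) = _
    rw [A.apply_symm_apply]
    refine congrArg B (Prod.ext rfl ?_)
    show Real.sqrt (x.1.2 - x.1.2 ^ 2) ^ 2 + x.1.2 ^ 2 - x.1.2 = 0
    rw [hsq]
    ring
  have hps : ∀ x, D.s * qn (D.f (p x)) ≤ 1 := fun x => by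
    rw [hpf]
    exact le_of_lt (hball (mem_closedBall_zero_iff.2 x.2.2.2.2))
  refine ⟨D, l, δ, ⟨fun x => ⟨A (D.ρ (p x)), (hM _).1 (D.ρ_mem _ (hpC x) (hps x))⟩,
    (A.continuous.comp (D.ρ_cont.comp_continuous hp fun x => ⟨hpC x, hps x⟩)).subtype_mk _⟩,
    hδ, fun x b h0 hb => ?_⟩
  show A (D.ρ (p x)) = _
  rw [D.ρ_id _ (hpC x) (by rw [hpf, h0]; exact map_zero B)]
  show A (A.symm _) = _
  rw [A.apply_symm_apply, hb]
  cases b <;> simp [en]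

end Vale.Agent.P263C64
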