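import Vale.Agent.P263B64.All
import Vale.Agent.P263C6.Well
import Vale.Agent.P263C6.Phi
import Vale.Agent.P263C15.Reps
import Vale.Agent.P263C24.Col
import Vale.Agent.P263C25.Inv
import Vale.Agent.P263C39.RelRow
import Vale.Agent.P263C56.Row
import Vale.Agent.P263C64.Dbl
import Vale.Agent.P263C76.Row
import Vale.Agent.P263C87.Fam
import Vale.Agent.P263C90.Row

/-!
# P263C: the Arf invariant is an invariant of the stable class
-/

namespace Vale.Agent.P263C64

open Vale.Agent

theorem inv : P263C.INV :=
  P263C.inv_of P263B64.conv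
    (P263C25.inv (P263C87.fam P263C39.rel) dbl P263C24.col P263C90.htp P263C56.gauss
      (P263C.phi_row P263B64.conv)) P263C76.sus' P263C15.reps

end Vale.Agent.P263C64
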